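import Crest.Agent.R318.CLMachine

/-!
# Row 318 (S0493): Cook-Levin, part 2: the formula of a flat stack program
-/

set_option autoImplicit false
set_option linter.dupNamespace false

namespace Crest.Agent.R318.CL

open Crest.Agent.Lib.PT Function

/-- variables of the tableau formula -/
abbrev Var : Type := ℕ × ℕ × ℕ × ℕ

/-- satisfiability of a CNF over an arbitrary type of variables; a literal is `(sign, variable)` -/
def Sat {V : Type} (φ : List (List (Bool × V))) : Prop :=
  ∃ τ : V → Bool, ∀ C ∈ φ, ∃ l ∈ C, τ l.2 = l.1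

/-- code of a cell content -/
def sym : Option Bool → ℕ
  | none => 0
  | some false => 1
  | some true => 2

theorem sym_inj : Function.Injective sym := by
  rintro (_ | _ | _) (_ | _ | _) h <;> simp_all [sym]

/-- `address at time t is q` -/
def vS (t q : ℕ) : Var := (t, 0, q, 0)

/-- `cell i of stack k at time t contains v` -/
def vC (t k i v : ℕ) : Var := (t, k + 1, i, v)

/-- where the new content of cell `i` of stack `k` comes from -/
def src : Instr → ℕ → ℕ → Bool ⊕ ℕ
  | .push k v _, k', i => if k' = k then (if i = 0 then .inl v else .inr (i - 1)) else .inr i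
  | .pop k _, k', i => if k' = k then .inr (i + 1) else .inr i
  | .br _ _ _ _, _, i => .inr i

theorem src_spec (I : Instr) (s : Store) (k i : ℕ) : ((exec1 I s).2 k)[i]? =
    match src I k i with
    | .inl v => some v
    | .inr j => (s k)[j]? := by
  cases I with
  | push k' v n =>
    simp only [exec1, src]
    by_cases h : k = k'
    · subst h
      rw [if_pos rfl, update_self]
      by_cases h0 : i = 0
      · subst h0; simp
      · obtain ⟨j, rfl⟩ := Nat.exists_eq_succ_of_ne_zero h0
        simp
    · rw [if_neg h, update_of_ne h]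
  | pop k' n =>
    simp only [exec1, src]
    by_cases h : k = k'
    · subst h
      rw [if_pos rfl, update_self]
      simp
    · rw [if_neg h, update_of_ne h]
  | br k' e t f => rfl

theorem src_le {I : Instr} {k i j : ℕ} (h : src I k i = .inr j) : j ≤ i + 1 := by
  cases I with
  | push k' v n =>
    simp only [src] at h
    split_ifs at h <;> (cases h; omega)
  | pop k' n =>
    simp only [src] at h
    split_ifs at h <;> (cases h; omega)
  | br k' e t f => simp only [src] at h; cases h; omega

/-- clauses for the next address -/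
def stCl (t q : ℕ) : Instr → List (List (Bool × Var))
  | .push _ _ n => [[(false, vS t q), (true, vS (t + 1) n)]]
  | .pop _ n => [[(false, vS t q), (true, vS (t + 1) n)]]
  | .br k e a b =>
      [[(false, vS t q), (false, vC t k 0 0), (true, vS (t + 1) e)],
       [(false, vS t q), (false, vC t k 0 2), (true, vS (t + 1) a)],
       [(false, vS t q), (false, vC t k 0 1), (true, vS (t + 1) b)]]

/-- clauses for the next content of a cell -/
def cellCl (t q : ℕ) (I : Instr) (k i : ℕ) : List (List (Bool × Var)) :=
  match src I k i with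
  | .inl v => [[(false, vS t q), (true, vC (t + 1) k i (sym (some v)))]]
  | .inr j =>
      [[(false, vS t q), (false, vC t k j 0), (true, vC (t + 1) k i 0)],
       [(false, vS t q), (false, vC t k j 1), (true, vC (t + 1) k i 1)],
       [(false, vS t q), (false, vC t k j 2), (true, vC (t + 1) k i 2)]]

/-- clauses of one instruction at one time -/
def instCl (K W : ℕ) (t : ℕ) (p : Instr × ℕ) : List (List (Bool × Var)) :=
  stCl t p.2 p.1 ++ (List.range K).flatMap fun k =>
    (List.range (W + 1)).flatMap fun i => cellCl t p.2 p.1 k i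

/-- clauses of one step -/
def stepCl (P : List Instr) (K W t : ℕ) : List (List (Bool × Var)) :=
  P.zipIdx.flatMap (instCl K W t)

/-- clauses of the initial configuration: `pre` followed by at most `p` free bits on stack `0` -/
def initCl (K W p : ℕ) (pre : List Bool) : List (List (Bool × Var)) :=
  [[(true, vS 0 0)]] ++
  ((List.zip pre (List.range pre.length)).map fun z => [(true, vC 0 0 z.2 (sym (some z.1)))]) ++
  ((List.range p).flatMap fun j =>
    [[(true, vC 0 0 (pre.length + j) 0), (true, vC 0 0 (pre.length + j) 1),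
      (true, vC 0 0 (pre.length + j) 2)],
     [(false, vC 0 0 (pre.length + j) 0), (true, vC 0 0 (pre.length + j + 1) 0)]]) ++
  ((List.range (W + 1)).map fun i => [(true, vC 0 0 (pre.length + p + i) 0)]) ++
  ((List.range K).flatMap fun k => (List.range (W + 1)).map fun i => [(true, vC 0 (k + 1) i 0)])

/-- the formula -/
def tabl (P : List Instr) (K W T p : ℕ) (pre : List Bool) : List (List (Bool × Var)) :=
  initCl K W p pre ++ ((List.range T).flatMap (stepCl P K W) ++ [[(false, vC T 0 0 1)]])

/-! ### Completeness: an accepting run gives a satisfying assignment -/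

/-- assignment of a run -/
noncomputable def tau (run : ℕ → ℕ × Store) : Var → Bool := fun v =>
  open Classical in
  match v with
  | (t, 0, q, _) => decide ((run t).1 = q)
  | (t, k + 1, i, v) => decide (sym (((run t).2 k)[i]?) = v)

theorem tau_vS (run : ℕ → ℕ × Store) (t q : ℕ) : tau run (vS t q) = true ↔ (run t).1 = q := by
  simp [tau, vS]

theorem tau_vC (run : ℕ → ℕ × Store) (t k i v : ℕ) :
    tau run (vC t k i v) = true ↔ sym (((run t).2 k)[i]?) = v := by
  simp [tau, vC]

theorem tau_vS_false (run : ℕ → ℕ × Store) (t q : ℕ) :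
    tau run (vS t q) = false ↔ ¬ (run t).1 = q := by
  simp [tau, vS]

theorem tau_vC_false (run : ℕ → ℕ × Store) (t k i v : ℕ) :
    tau run (vC t k i v) = false ↔ ¬ sym (((run t).2 k)[i]?) = v := by
  simp [tau, vC]

theorem stCl_sat {run : ℕ → ℕ × Store} {t q : ℕ} {I : Instr}
    (h : (run t).1 = q → run (t + 1) = exec1 I (run t).2) :
    ∀ C ∈ stCl t q I, ∃ l ∈ C, tau run l.2 = l.1 := by
  by_cases hq : (run t).1 = q
  · have h := h hq
    cases I with
    | push k v n =>
      intro C hC
      simp only [stCl, List.mem_singleton] at hC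
      subst hC
      exact ⟨(true, vS (t + 1) n), by simp, (tau_vS _ _ _).2 (by rw [h]; rfl)⟩
    | pop k n =>
      intro C hC
      simp only [stCl, List.mem_singleton] at hC
      subst hC
      exact ⟨(true, vS (t + 1) n), by simp, (tau_vS _ _ _).2 (by rw [h]; rfl)⟩
    | br k e a b =>
      intro C hC
      simp only [stCl, List.mem_cons, List.not_mem_nil, or_false] at hC
      rcases hC with rfl | rfl | rfl
      · by_cases h0 : sym (((run t).2 k)[0]?) = 0
        · refine ⟨(true, vS (t + 1) e), by simp, (tau_vS _ _ _).2 ?_⟩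
          rw [h]
          have h1 : ((run t).2 k)[0]? = none := sym_inj (by simpa [sym] using h0)
          simp only [exec1, h1, target]
        · exact ⟨(false, vC t k 0 0), by simp, (tau_vC_false _ _ _ _ _).2 h0⟩
      · by_cases h0 : sym (((run t).2 k)[0]?) = 2
        · refine ⟨(true, vS (t + 1) a), by simp, (tau_vS _ _ _).2 ?_⟩
          rw [h]
          have h1 : ((run t).2 k)[0]? = some true := sym_inj (by simpa [sym] using h0)
          simp only [exec1, h1, target]
        · exact ⟨(false, vC t k 0 2), by simp, (tau_vC_false _ _ _ _ _).2 h0⟩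
      · by_cases h0 : sym (((run t).2 k)[0]?) = 1
        · refine ⟨(true, vS (t + 1) b), by simp, (tau_vS _ _ _).2 ?_⟩
          rw [h]
          have h1 : ((run t).2 k)[0]? = some false := sym_inj (by simpa [sym] using h0)
          simp only [exec1, h1, target]
        · exact ⟨(false, vC t k 0 1), by simp, (tau_vC_false _ _ _ _ _).2 h0⟩
  · intro C hC
    have hl : (false, vS t q) ∈ C := by
      cases I with
      | push k v n => simp only [stCl, List.mem_singleton] at hC; subst hC; simp
      | pop k n => simp only [stCl, List.mem_singleton] at hC; subst hC; simp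
      | br k e a b =>
        simp only [stCl, List.mem_cons, List.not_mem_nil, or_false] at hC
        rcases hC with rfl | rfl | rfl <;> simp
    exact ⟨_, hl, (tau_vS_false _ _ _).2 hq⟩

theorem cellCl_sat {run : ℕ → ℕ × Store} {t q : ℕ} {I : Instr}
    (h : (run t).1 = q → run (t + 1) = exec1 I (run t).2) (k i : ℕ) :
    ∀ C ∈ cellCl t q I k i, ∃ l ∈ C, tau run l.2 = l.1 := by
  by_cases hq : (run t).1 = q
  · have h := h hq
    have hs := src_spec I (run t).2 k i
    rw [← h] at hs
    intro C hC
    unfold cellCl at hC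
    cases hsrc : src I k i with
    | inl v =>
      rw [hsrc] at hC hs
      simp only [List.mem_singleton] at hC
      subst hC
      exact ⟨(true, vC (t + 1) k i (sym (some v))), by simp, (tau_vC _ _ _ _ _).2 (by rw [hs])⟩
    | inr j =>
      rw [hsrc] at hC hs
      simp only [List.mem_cons, List.not_mem_nil, or_false] at hC
      have key : ∀ v, C = [(false, vS t q), (false, vC t k j v), (true, vC (t + 1) k i v)] →
          ∃ l ∈ C, tau run l.2 = l.1 := by
        rintro v rfl
        by_cases h0 : sym (((run t).2 k)[j]?) = v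
        · exact ⟨(true, vC (t + 1) k i v), by simp, (tau_vC _ _ _ _ _).2 (by rw [hs, h0])⟩
        · exact ⟨(false, vC t k j v), by simp, (tau_vC_false _ _ _ _ _).2 h0⟩
      rcases hC with hC | hC | hC <;> exact key _ hC
  · intro C hC
    have hl : (false, vS t q) ∈ C := by
      unfold cellCl at hC
      cases hsrc : src I k i with
      | inl v => rw [hsrc] at hC; simp only [List.mem_singleton] at hC; subst hC; simp
      | inr j =>
        rw [hsrc] at hC
        simp only [List.mem_cons, List.not_mem_nil, or_false] at hC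
        rcases hC with rfl | rfl | rfl <;> simp
    exact ⟨_, hl, (tau_vS_false _ _ _).2 hq⟩

theorem stepCl_sat {P : List Instr} {run : ℕ → ℕ × Store} (hrun : ∀ t, run (t + 1) = step P (run t))
    (K W t : ℕ) : ∀ C ∈ stepCl P K W t, ∃ l ∈ C, tau run l.2 = l.1 := by
  intro C hC
  unfold stepCl at hC
  rw [List.mem_flatMap] at hC
  obtain ⟨⟨I, q⟩, hI, hC⟩ := hC
  rw [List.mem_zipIdx_iff_getElem?] at hI
  have h : (run t).1 = q → run (t + 1) = exec1 I (run t).2 := by
    intro hq
    rw [hrun, step, hq]
    simp only at hI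
    rw [hI]
  unfold instCl at hC
  rw [List.mem_append] at hC
  rcases hC with hC | hC
  · exact stCl_sat h C hC
  · simp only [List.mem_flatMap] at hC
    obtain ⟨k, _, i, _, hC⟩ := hC
    exact cellCl_sat h k i C hC

theorem init_cell (K W p : ℕ) (pre w : List Bool) (hw : w.length ≤ p) (run : ℕ → ℕ × Store)
    (h0 : run 0 = (0, init (pre ++ w))) : ∀ C ∈ initCl K W p pre, ∃ l ∈ C, tau run l.2 = l.1 := by
  intro C hC
  simp only [initCl, List.mem_append, List.mem_singleton, List.mem_map, List.mem_flatMap,
    List.mem_range] at hC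
  rcases hC with (((hC | hC) | hC) | hC) | hC
  · subst hC
    exact ⟨_, List.mem_singleton_self _, (tau_vS _ _ _).2 (by rw [h0])⟩
  · obtain ⟨⟨b, i⟩, hz, rfl⟩ := hC
    refine ⟨_, List.mem_singleton_self _, (tau_vC _ _ _ _ _).2 ?_⟩
    rw [h0]
    obtain ⟨n, hn, hz⟩ := List.mem_iff_getElem.1 hz
    simp only [List.getElem_zip, List.getElem_range, Prod.mk.injEq] at hz
    obtain ⟨hz1, rfl⟩ := hz
    have hn' : n < pre.length := by
      rw [List.length_zip, List.length_range] at hn; omega
    simp only [init_zero]
    rw [List.getElem?_append_left hn', List.getElem?_eq_getElem hn', hz1]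
  · obtain ⟨j, hj, hC⟩ := hC
    simp only [List.mem_cons, List.not_mem_nil, or_false] at hC
    have hc : ((run 0).2 0)[pre.length + j]? = w[j]? := by
      rw [h0]
      simp only [init_zero]
      rw [List.getElem?_append_right (by omega)]
      congr 1; omega
    have hc' : ((run 0).2 0)[pre.length + j + 1]? = w[j + 1]? := by
      rw [h0]
      simp only [init_zero]
      rw [List.getElem?_append_right (by omega)]
      congr 1; omega
    rcases hC with rfl | rfl
    · rcases hs : w[j]? with _ | _ | _
      · exact ⟨(true, vC 0 0 (pre.length + j) 0), by simp, (tau_vC _ _ _ _ _).2 (by rw [hc, hs]; rfl)⟩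
      · exact ⟨(true, vC 0 0 (pre.length + j) 1), by simp, (tau_vC _ _ _ _ _).2 (by rw [hc, hs]; rfl)⟩
      · exact ⟨(true, vC 0 0 (pre.length + j) 2), by simp, (tau_vC _ _ _ _ _).2 (by rw [hc, hs]; rfl)⟩
    · by_cases h1 : j < w.length
      · refine ⟨(false, vC 0 0 (pre.length + j) 0), by simp, (tau_vC_false _ _ _ _ _).2 ?_⟩
        rw [hc, List.getElem?_eq_getElem h1]
        cases w[j] <;> simp [sym]
      · refine ⟨(true, vC 0 0 (pre.length + j + 1) 0), by simp, (tau_vC _ _ _ _ _).2 ?_⟩
        rw [hc', List.getElem?_eq_none (by omega)]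
        rfl
  · obtain ⟨i, _, rfl⟩ := hC
    refine ⟨_, List.mem_singleton_self _, (tau_vC _ _ _ _ _).2 ?_⟩
    rw [h0]
    simp only [init_zero]
    rw [List.getElem?_eq_none (by simp; omega)]
    rfl
  · obtain ⟨k, _, i, _, rfl⟩ := hC
    refine ⟨_, List.mem_singleton_self _, (tau_vC _ _ _ _ _).2 ?_⟩
    rw [h0]
    simp [sym]

theorem tabl_sat {P : List Instr} {K W T p : ℕ} {pre w : List Bool} (hw : w.length ≤ p)
    (hacc : ((step P)^[T] (0, init (pre ++ w))).2 0 = [true]) : Sat (tabl P K W T p pre) := by
  set run : ℕ → ℕ × Store := fun t => (step P)^[t] (0, init (pre ++ w)) with hr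
  refine ⟨tau run, ?_⟩
  intro C hC
  unfold tabl at hC
  simp only [List.mem_append, List.mem_flatMap, List.mem_singleton] at hC
  rcases hC with hC | ⟨t, _, hC⟩ | hC
  · exact init_cell K W p pre w hw run rfl C hC
  · exact stepCl_sat (fun t => iterate_succ_apply' _ _ _) K W t C hC
  · subst hC
    refine ⟨_, List.mem_singleton_self _, (tau_vC_false _ _ _ _ _).2 ?_⟩
    have : (run T).2 0 = [true] := hacc
    rw [this]
    simp [sym]

/-! ### Soundness -/

theorem exists_cert (f : ℕ → ℕ → Bool) : ∀ n a : ℕ,
    (∀ j < n, f (a + j) 0 = true ∨ f (a + j) 1 = true ∨ f (a + j) 2 = true) →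
    (∀ j < n, f (a + j) 0 = true → f (a + j + 1) 0 = true) →
    ∃ w : List Bool, w.length ≤ n ∧ ∀ j < n, f (a + j) (sym w[j]?) = true := by
  intro n
  induction n with
  | zero => intro a _ _; exact ⟨[], by simp, fun j hj => absurd hj (by omega)⟩
  | succ n ih =>
    intro a h1 h2
    by_cases h0 : f a 0 = true
    · refine ⟨[], by simp, ?_⟩
      intro j
      induction j with
      | zero => intro _; simpa [sym] using h0
      | succ j ihj =>
        intro hj
        have h3 := ihj (by omega)
        simp only [List.getElem?_nil, sym] at h3 ⊢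
        exact h2 j (by omega) h3
    · obtain ⟨w, hw, hw'⟩ := ih (a + 1)
        (fun j hj => by
          have := h1 (j + 1) (by omega)
          rwa [show a + (j + 1) = a + 1 + j by omega] at this)
        (fun j hj => by
          have := h2 (j + 1) (by omega)
          rwa [show a + (j + 1) = a + 1 + j by omega] at this)
      have h3 := h1 0 (by omega)
      rw [add_zero] at h3
      rcases h3 with h3 | h3 | h3
      · exact absurd h3 h0
      · refine ⟨false :: w, by simp; omega, ?_⟩
        intro j hj
        cases j with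
        | zero => simpa [sym] using h3
        | succ j =>
          rw [show a + (j + 1) = a + 1 + j by omega]
          simpa using hw' j (by omega)
      · refine ⟨true :: w, by simp; omega, ?_⟩
        intro j hj
        cases j with
        | zero => simpa [sym] using h3
        | succ j =>
          rw [show a + (j + 1) = a + 1 + j by omega]
          simpa using hw' j (by omega)

/-- a unit or implication clause used as a rule -/
theorem rule2 {V : Type} {τ : V → Bool} {a b : V} (h : ∃ l ∈ [(false, a), (true, b)], τ l.2 = l.1)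
    (ha : τ a = true) : τ b = true := by
  obtain ⟨l, hl, h⟩ := h
  simp only [List.mem_cons, List.not_mem_nil, or_false] at hl
  rcases hl with rfl | rfl
  · simp only at h; rw [ha] at h; exact absurd h (by simp)
  · exact h

theorem rule3 {V : Type} {τ : V → Bool} {a b c : V}
    (h : ∃ l ∈ [(false, a), (false, b), (true, c)], τ l.2 = l.1)
    (ha : τ a = true) (hb : τ b = true) : τ c = true := by
  obtain ⟨l, hl, h⟩ := h
  simp only [List.mem_cons, List.not_mem_nil, or_false] at hl
  rcases hl with rfl | rfl | rfl
  · simp only at h; rw [ha] at h; exact absurd h (by simp)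
  · simp only at h; rw [hb] at h; exact absurd h (by simp)
  · exact h

theorem rule1 {V : Type} {τ : V → Bool} {a : V} {b : Bool}
    (h : ∃ l ∈ [(b, a)], τ l.2 = l.1) : τ a = b := by
  obtain ⟨l, hl, h⟩ := h
  simp only [List.mem_singleton] at hl
  subst hl
  exact h

/-- `τ` is right about the configuration `a` at time `t` -/
def Right (K W : ℕ) (τ : Var → Bool) (t : ℕ) (a : ℕ × Store) : Prop :=
  τ (vS t a.1) = true ∧ ∀ k < K, ∀ i, i + t ≤ W → τ (vC t k i (sym (a.2 k)[i]?)) = true

theorem right_step {P : List Instr} {K W t : ℕ} {τ : Var → Bool}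
    (hτ : ∀ C ∈ stepCl P K W t, ∃ l ∈ C, τ l.2 = l.1) (hP : ∀ I ∈ P, ∃ m, I.Ok m K)
    (hW : t ≤ W) {a : ℕ × Store} (ha : a.1 < P.length) (h : Right K W τ t a) :
    Right K W τ (t + 1) (step P a) := by
  obtain ⟨pc, s⟩ := a
  simp only at ha
  set I := P[pc] with hI
  have hget : P[pc]? = some I := List.getElem?_eq_getElem ha
  rw [step_of hget]
  have hmem : (I, pc) ∈ P.zipIdx := by
    rw [List.mem_zipIdx_iff_getElem?]; exact hget
  have hall : ∀ C ∈ instCl K W t (I, pc), ∃ l ∈ C, τ l.2 = l.1 := fun C hC =>
    hτ C (List.mem_flatMap.2 ⟨_, hmem, hC⟩)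
  obtain ⟨m, hok⟩ := hP I (List.getElem_mem ha)
  constructor
  · have hst : ∀ C ∈ stCl t pc I, ∃ l ∈ C, τ l.2 = l.1 := fun C hC =>
      hall C (List.mem_append_left _ hC)
    cases hI' : I with
    | push k v n =>
      rw [hI'] at hst
      exact rule2 (hst [(false, vS t pc), (true, vS (t + 1) n)] (by simp [stCl])) h.1
    | pop k n =>
      rw [hI'] at hst
      exact rule2 (hst [(false, vS t pc), (true, vS (t + 1) n)] (by simp [stCl])) h.1
    | br k e x y =>
      rw [hI'] at hst hok
      have hc := h.2 k hok.1 0 (by omega)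
      simp only [exec1]
      rcases hs : (s k)[0]? with _ | _ | _
      · rw [hs] at hc
        exact rule3 (hst [(false, vS t pc), (false, vC t k 0 0), (true, vS (t + 1) e)]
          (by simp [stCl])) h.1 hc
      · rw [hs] at hc
        exact rule3 (hst [(false, vS t pc), (false, vC t k 0 1), (true, vS (t + 1) y)]
          (by simp [stCl])) h.1 hc
      · rw [hs] at hc
        exact rule3 (hst [(false, vS t pc), (false, vC t k 0 2), (true, vS (t + 1) x)]
          (by simp [stCl])) h.1 hc
  · intro k hk i hi
    have hcell : ∀ C ∈ cellCl t pc I k i, ∃ l ∈ C, τ l.2 = l.1 := fun C hC =>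
      hall C (List.mem_append_right _ (List.mem_flatMap.2 ⟨k, List.mem_range.2 hk,
        List.mem_flatMap.2 ⟨i, List.mem_range.2 (by omega), hC⟩⟩))
    rw [src_spec]
    cases hsrc : src I k i with
    | inl v =>
      simp only [cellCl, hsrc] at hcell
      exact rule2 (hcell _ (List.mem_singleton_self _)) h.1
    | inr j =>
      simp only [cellCl, hsrc] at hcell
      have hj := src_le hsrc
      have hc := h.2 k hk j (by omega)
      simp only at hc ⊢
      rcases hs : (s k)[j]? with _ | _ | _
      · rw [hs] at hc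
        exact rule3 (hcell [(false, vS t pc), (false, vC t k j 0), (true, vC (t + 1) k i 0)]
          (by simp)) h.1 hc
      · rw [hs] at hc
        exact rule3 (hcell [(false, vS t pc), (false, vC t k j 1), (true, vC (t + 1) k i 1)]
          (by simp)) h.1 hc
      · rw [hs] at hc
        exact rule3 (hcell [(false, vS t pc), (false, vC t k j 2), (true, vC (t + 1) k i 2)]
          (by simp)) h.1 hc

theorem right_iter {P : List Instr} {K W T : ℕ} {τ : Var → Bool}
    (hτ : ∀ t < T, ∀ C ∈ stepCl P K W t, ∃ l ∈ C, τ l.2 = l.1) (hP : ∀ I ∈ P, ∃ m, I.Ok m K)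
    (hW : T ≤ W) (a : ℕ × Store) (ha : ∀ t, ((step P)^[t] a).1 < P.length)
    (h : Right K W τ 0 a) : ∀ t ≤ T, Right K W τ t ((step P)^[t] a) := by
  intro t
  induction t with
  | zero => intro _; exact h
  | succ t ih =>
    intro ht
    rw [iterate_succ_apply']
    exact right_step (hτ t (by omega)) hP (by omega) (ha t) (ih (by omega))

theorem right_init {K W p : ℕ} {pre : List Bool} {τ : Var → Bool}
    (hτ : ∀ C ∈ initCl K W p pre, ∃ l ∈ C, τ l.2 = l.1) :
    ∃ w : List Bool, w.length ≤ p ∧ Right K W τ 0 (0, init (pre ++ w)) := by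
  simp only [initCl, List.mem_append, List.mem_singleton, List.mem_map, List.mem_flatMap,
    List.mem_range] at hτ
  have h1 : ∀ i (hi : i < pre.length), τ (vC 0 0 i (sym (some pre[i]))) = true := by
    intro i hi
    refine rule1 (hτ _ (Or.inl (Or.inl (Or.inl (Or.inr ⟨(pre[i], i), ?_, rfl⟩)))))
    rw [List.mem_iff_getElem]
    exact ⟨i, by simp [hi], by simp⟩
  have h2 : ∀ j < p, τ (vC 0 0 (pre.length + j) 0) = true ∨ τ (vC 0 0 (pre.length + j) 1) = true ∨
      τ (vC 0 0 (pre.length + j) 2) = true := by
    intro j hj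
    obtain ⟨l, hl, h⟩ := hτ [(true, vC 0 0 (pre.length + j) 0), (true, vC 0 0 (pre.length + j) 1),
      (true, vC 0 0 (pre.length + j) 2)] (Or.inl (Or.inl (Or.inr ⟨j, hj, by simp⟩)))
    simp only [List.mem_cons, List.not_mem_nil, or_false] at hl
    rcases hl with rfl | rfl | rfl
    · exact Or.inl h
    · exact Or.inr (Or.inl h)
    · exact Or.inr (Or.inr h)
  have h3 : ∀ j < p, τ (vC 0 0 (pre.length + j) 0) = true →
      τ (vC 0 0 (pre.length + j + 1) 0) = true := by
    intro j hj h
    exact rule2 (hτ _ (Or.inl (Or.inl (Or.inr ⟨j, hj, by simp⟩)))) h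
  have h4 : ∀ i ≤ W, τ (vC 0 0 (pre.length + p + i) 0) = true := by
    intro i hi
    exact rule1 (hτ _ (Or.inl (Or.inr ⟨i, by omega, rfl⟩)))
  have h5 : ∀ k < K, ∀ i ≤ W, τ (vC 0 (k + 1) i 0) = true := by
    intro k hk i hi
    exact rule1 (hτ _ (Or.inr ⟨k, hk, i, by omega, rfl⟩))
  obtain ⟨w, hw, hw'⟩ := exists_cert (fun i v => τ (vC 0 0 i v)) p pre.length h2 h3
  refine ⟨w, hw, rule1 (hτ _ (Or.inl (Or.inl (Or.inl (Or.inl rfl))))), ?_⟩
  intro k hk i hi
  cases k with
  | succ k => simpa [sym] using h5 k (by omega) i (by omega)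
  | zero =>
    simp only [init_zero]
    by_cases ha : i < pre.length
    · rw [List.getElem?_append_left ha, List.getElem?_eq_getElem ha]
      exact h1 i ha
    · obtain ⟨j, rfl⟩ := Nat.exists_eq_add_of_le (not_lt.1 ha)
      rw [List.getElem?_append_right (by omega), Nat.add_sub_cancel_left]
      by_cases hj : j < p
      · exact hw' j hj
      · obtain ⟨i', rfl⟩ := Nat.exists_eq_add_of_le (not_lt.1 hj)
        rw [List.getElem?_eq_none (by omega), ← add_assoc]
        exact h4 i' (by omega)

theorem of_tabl_sat {P : List Instr} {K W T p : ℕ} {pre : List Bool}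
    (h : Sat (tabl P K W T p pre)) (hP : ∀ I ∈ P, ∃ m, I.Ok m K) (hK : 0 < K) (hW : T ≤ W)
    (hpc : ∀ w t, ((step P)^[t] (0, init (pre ++ w))).1 < P.length) :
    ∃ w : List Bool, w.length ≤ p ∧ ((step P)^[T] (0, init (pre ++ w))).2 0 ≠ [false] := by
  obtain ⟨τ, hτ⟩ := h
  unfold tabl at hτ
  obtain ⟨w, hw, hr⟩ := right_init (fun C hC => hτ C (List.mem_append_left _ hC))
  refine ⟨w, hw, fun he => ?_⟩
  have h1 := right_iter (T := T) (fun t ht C hC => hτ C (List.mem_append_right _
    (List.mem_append_left _ (List.mem_flatMap.2 ⟨t, List.mem_range.2 ht, hC⟩)))) hP hW _ (hpc w) hr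
    T le_rfl
  have h2 := h1.2 0 hK 0 (by omega)
  rw [he] at h2
  have h3 := rule1 (hτ [(false, vC T 0 0 1)] (by simp))
  simp only [List.getElem?_cons_zero, sym] at h2
  rw [h2] at h3
  exact absurd h3 (by simp)

end Crest.Agent.R318.CL
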