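import Crest.Agent.Lib.PT.Alphabet

/-!
# Row 318 (S0493): Cook-Levin, part 1: flat stack programs
-/

set_option autoImplicit false
set_option linter.dupNamespace false

namespace Crest.Agent.R318.CL

open Crest.Agent.Lib.PT Function

/-- instructions of a flat program over Boolean stacks -/
inductive Instr : Type
  | push (k : ℕ) (b : Bool) (n : ℕ) : Instr
  | pop (k : ℕ) (n : ℕ) : Instr
  | br (k : ℕ) (e t f : ℕ) : Instr
  deriving Inhabited

/-- number of instructions -/
def size : Cmd → ℕ
  | .skip => 1
  | .push _ _ => 1
  | .pop _ => 1
  | .seq c d => size c + size d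
  | .ite _ e c d => 1 + (size e + (size c + size d))
  | .loop _ c => 1 + size c

/-- compilation to a flat program, loaded at address `b`, leaving to address `x` -/
def comp : Cmd → ℕ → ℕ → List Instr
  | .skip, _, x => [.br 0 x x x]
  | .push k v, _, x => [.push k v x]
  | .pop k, _, x => [.pop k x]
  | .seq c d, b, x => comp c b (b + size c) ++ comp d (b + size c) x
  | .ite k e c d, b, x =>
      .br k (b + 1) (b + 1 + size e) (b + 1 + size e + size c) ::
        (comp e (b + 1) x ++ (comp c (b + 1 + size e) x ++ comp d (b + 1 + size e + size c) x))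
  | .loop k c, b, x => .br k x (b + 1) (b + 1) :: comp c (b + 1) b

theorem length_comp (c : Cmd) : ∀ b x, (comp c b x).length = size c := by
  induction c with
  | skip => intro b x; rfl
  | push k v => intro b x; rfl
  | pop k => intro b x; rfl
  | seq c d ihc ihd => intro b x; simp [comp, size, ihc, ihd]
  | ite k e c d ihe ihc ihd => intro b x; simp [comp, size, ihe, ihc, ihd]; omega
  | loop k c ih => intro b x; simp [comp, size, ih]; omega

theorem size_pos (c : Cmd) : 0 < size c := by
  induction c with
  | skip => simp [size]
  | push k v => simp [size]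
  | pop k => simp [size]
  | seq c d ihc ihd => simp [size]; omega
  | ite k e c d ihe ihc ihd => simp [size]
  | loop k c ih => simp [size]

/-- the list `L` sits at address `b` of the program `P` -/
def Sub (P : List Instr) (b : ℕ) (L : List Instr) : Prop := ∀ i, i < L.length → P[b + i]? = L[i]?

theorem Sub.left {P L L' : List Instr} {b : ℕ} (h : Sub P b (L ++ L')) : Sub P b L := by
  intro i hi
  rw [h i (by simp; omega), List.getElem?_append_left hi]

theorem Sub.right {P L L' : List Instr} {b : ℕ} (h : Sub P b (L ++ L')) :
    Sub P (b + L.length) L' := by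
  intro i hi
  have := h (L.length + i) (by simp; omega)
  rw [← add_assoc] at this
  rw [this, List.getElem?_append_right (by omega)]
  congr 1
  omega

theorem Sub.head {P L : List Instr} {a : Instr} {b : ℕ} (h : Sub P b (a :: L)) : P[b]? = some a := by
  have := h 0 (by simp)
  simpa using this

theorem Sub.tail {P L : List Instr} {a : Instr} {b : ℕ} (h : Sub P b (a :: L)) : Sub P (b + 1) L := by
  intro i hi
  have := h (i + 1) (by simp; omega)
  rw [show b + 1 + i = b + (i + 1) by omega, this]
  simp

/-- where a branch goes -/
def target (o : Option Bool) (e t f : ℕ) : ℕ :=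
  match o with
  | none => e
  | some true => t
  | some false => f

/-- effect of an instruction on the store and next address -/
def exec1 : Instr → Store → ℕ × Store
  | .push k v n, s => (n, update s k (v :: s k))
  | .pop k n, s => (n, update s k (s k).tail)
  | .br k e t f, s => (target (s k)[0]? e t f, s)

/-- one step of the flat program; outside the program nothing happens -/
def step (P : List Instr) (a : ℕ × Store) : ℕ × Store :=
  match P[a.1]? with
  | none => a
  | some I => exec1 I a.2

theorem step_of {P : List Instr} {pc : ℕ} {I : Instr} (h : P[pc]? = some I) (s : Store) :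
    step P (pc, s) = exec1 I s := by
  simp [step, h]

/-- the flat program simulates the structured one -/
theorem sim {c : Cmd} {s s' : Store} {t : ℕ} (h : Exec c s s' t) :
    ∀ (P : List Instr) (b x : ℕ), Sub P b (comp c b x) → (step P)^[t] (b, s) = (x, s') := by
  induction h with
  | skip s =>
    intro P b x hP
    have h1 := hP.head
    rw [iterate_one, step_of h1]
    simp only [exec1]
    cases h : (s 0)[0]? with
    | none => rfl
    | some v => cases v <;> rfl
  | push k v s =>
    intro P b x hP
    rw [iterate_one, step_of hP.head]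
    rfl
  | pop k s =>
    intro P b x hP
    rw [iterate_one, step_of hP.head]
    rfl
  | @seq c d s s' s'' t t' _ _ ih1 ih2 =>
    intro P b x hP
    have h1 := ih1 P b (b + size c) hP.left
    have h2 := hP.right
    rw [length_comp] at h2
    rw [add_comm t t', iterate_add_apply, h1, ih2 P _ x h2]
  | @ite_nil k e c d s s' t hk _ ih =>
    intro P b x hP
    rw [add_comm 1 t, iterate_add_apply, iterate_one, step_of hP.head]
    simp only [exec1, hk, List.getElem?_nil, target]
    exact ih P (b + 1) x hP.tail.left
  | @ite_true k e c d s s' t l hk _ ih =>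
    intro P b x hP
    rw [add_comm 1 t, iterate_add_apply, iterate_one, step_of hP.head]
    simp only [exec1, hk, List.getElem?_cons_zero, target]
    have h1 := hP.tail.right
    rw [length_comp] at h1
    exact ih P _ x h1.left
  | @ite_false k e c d s s' t l hk _ ih =>
    intro P b x hP
    rw [add_comm 1 t, iterate_add_apply, iterate_one, step_of hP.head]
    simp only [exec1, hk, List.getElem?_cons_zero, target]
    have h1 := hP.tail.right
    rw [length_comp] at h1
    have h2 := h1.right
    rw [length_comp] at h2
    exact ih P _ x h2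
  | @loop_nil k c s hk =>
    intro P b x hP
    rw [iterate_one, step_of hP.head]
    simp only [exec1, hk, List.getElem?_nil, target]
  | @loop_cons k c s s' s'' t t' hk _ _ ih1 ih2 =>
    intro P b x hP
    obtain ⟨v, l, hbl⟩ : ∃ v l, s k = v :: l := List.exists_cons_of_ne_nil hk
    rw [show 1 + t + t' = t' + t + 1 by omega, iterate_add_apply, iterate_one, step_of hP.head]
    have e1 : exec1 (Instr.br k x (b + 1) (b + 1)) s = (b + 1, s) := by
      simp only [exec1, hbl, List.getElem?_cons_zero]
      cases v <;> rfl
    rw [e1, iterate_add_apply, ih1 P (b + 1) b hP.tail, ih2 P b x hP]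

/-- the whole program -/
def prog (c : Cmd) : List Instr := comp c 0 (size c)

theorem sim_prog {c : Cmd} {s s' : Store} {t : ℕ} (h : Exec c s s' t) :
    (step (prog c))^[t] (0, s) = (size c, s') :=
  sim h (prog c) 0 (size c) (fun i _ => by rw [zero_add]; rfl)

theorem step_halt (c : Cmd) (s : Store) : step (prog c) (size c, s) = (size c, s) := by
  have : (prog c)[size c]? = none := by
    rw [List.getElem?_eq_none_iff]; exact (length_comp c 0 _).le
  simp [step, this]

theorem sim_prog_le {c : Cmd} {s s' : Store} {t T : ℕ} (h : Exec c s s' t) (hT : t ≤ T) :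
    (step (prog c))^[T] (0, s) = (size c, s') := by
  obtain ⟨d, rfl⟩ := Nat.exists_eq_add_of_le hT
  rw [add_comm, iterate_add_apply, sim_prog h]
  induction d with
  | zero => rfl
  | succ d ih => rw [iterate_succ_apply', ih (by omega), step_halt]

/-! ### address bounds -/

/-- all addresses mentioned by an instruction are `≤ m`, all stacks `< K` -/
def Instr.Ok (m K : ℕ) : Instr → Prop
  | .push k _ n => k < K ∧ n ≤ m
  | .pop k n => k < K ∧ n ≤ m
  | .br k e t f => k < K ∧ e ≤ m ∧ t ≤ m ∧ f ≤ m

theorem comp_ok (c : Cmd) : ∀ b x m K, b + size c ≤ m → x ≤ m → c.maxVar < K →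
    ∀ I ∈ comp c b x, I.Ok m K := by
  induction c with
  | skip => intro b x m K h1 h2 h3 I hI; simp [comp] at hI; subst hI; exact ⟨by omega, h2, h2, h2⟩
  | push k v =>
    intro b x m K h1 h2 h3 I hI; simp [comp] at hI; subst hI; exact ⟨h3, h2⟩
  | pop k =>
    intro b x m K h1 h2 h3 I hI; simp [comp] at hI; subst hI; exact ⟨h3, h2⟩
  | seq c d ihc ihd =>
    intro b x m K h1 h2 h3 I hI
    simp only [size] at h1
    simp only [Cmd.maxVar, max_lt_iff] at h3
    simp only [comp, List.mem_append] at hI
    rcases hI with hI | hI
    · exact ihc _ _ _ _ (by omega) (by omega) h3.1 _ hI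
    · exact ihd _ _ _ _ (by omega) h2 h3.2 _ hI
  | ite k e c d ihe ihc ihd =>
    intro b x m K h1 h2 h3 I hI
    simp only [size] at h1
    simp only [Cmd.maxVar, max_lt_iff] at h3
    simp only [comp, List.mem_cons, List.mem_append] at hI
    have := size_pos d
    rcases hI with rfl | hI | hI | hI
    · exact ⟨h3.1, by omega, by omega, by omega⟩
    · exact ihe _ _ _ _ (by omega) h2 h3.2.1 _ hI
    · exact ihc _ _ _ _ (by omega) h2 h3.2.2.1 _ hI
    · exact ihd _ _ _ _ (by omega) h2 h3.2.2.2 _ hI
  | loop k c ih =>
    intro b x m K h1 h2 h3 I hI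
    simp only [size] at h1
    simp only [Cmd.maxVar, max_lt_iff] at h3
    simp only [comp, List.mem_cons] at hI
    rcases hI with rfl | hI
    · exact ⟨h3.1, h2, by omega, by omega⟩
    · exact ih _ _ _ _ (by omega) (by omega) h3.2 _ hI

end Crest.Agent.R318.CL
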