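import Crest.Agent.R318.CLCnf

/-!
# Row 318 (S0493): the Cook-Levin theorem

`cookLevin`: every problem in `NP` reduces in polynomial time to the satisfiability of formulas in
conjunctive normal form with at most three literals per clause.
-/

set_option autoImplicit false
set_option linter.dupNamespace false

namespace Crest.Agent.R318.CL

open Crest.Agent.Lib.PT Function

section ptf

variable {γ : Type} [PTCode γ] {β : Type} [PTCode β]

theorem ptf_flatMap_const {α : Type} (l : List α) (f : γ → α → List β)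
    (h : ∀ a ∈ l, PTF (fun c => f c a)) : PTF (fun c => l.flatMap (f c)) := by
  induction l with
  | nil => exact PTF.const []
  | cons a l ih =>
    refine PTF.of_eq (PTF.append (h a (by simp)) (ih fun b hb => h b (by simp [hb])))
      (fun c => by simp)

theorem ptf_lit (b : Bool) {t k i v : γ → ℕ} (ht : PTF t) (hk : PTF k) (hi : PTF i) (hv : PTF v) :
    PTF (fun c => ((b, (t c, k c, i c, v c)) : Bool × Var)) :=
  PTF.prodMk (PTF.const b) (PTF.prodMk ht (PTF.prodMk hk (PTF.prodMk hi hv)))

theorem ptf_vS (b : Bool) {t q : γ → ℕ} (ht : PTF t) (hq : PTF q) :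
    PTF (fun c => ((b, vS (t c) (q c)) : Bool × Var)) :=
  ptf_lit b ht (PTF.const 0) hq (PTF.const 0)

theorem ptf_vC (b : Bool) {t k i v : γ → ℕ} (ht : PTF t) (hk : PTF k) (hi : PTF i) (hv : PTF v) :
    PTF (fun c => ((b, vC (t c) (k c) (i c) (v c)) : Bool × Var)) :=
  ptf_lit b ht (PTF.natAdd hk (PTF.const 1)) hi hv

theorem ptf_sing {a : γ → β} (ha : PTF a) : PTF (fun c => [a c]) :=
  PTF.listCons ha (PTF.const [])

theorem ptf_two {a b : γ → β} (ha : PTF a) (hb : PTF b) : PTF (fun c => [a c, b c]) :=
  PTF.listCons ha (ptf_sing hb)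

theorem ptf_three {a b d : γ → β} (ha : PTF a) (hb : PTF b) (hd : PTF d) :
    PTF (fun c => [a c, b c, d c]) :=
  PTF.listCons ha (ptf_two hb hd)

theorem ptf_stCl {t : γ → ℕ} (ht : PTF t) (q : ℕ) (I : Instr) :
    PTF (fun c => stCl (t c) q I) := by
  have ht1 : PTF (fun c => t c + 1) := PTF.natAdd ht (PTF.const 1)
  cases I with
  | push k v n =>
    exact ptf_sing (ptf_two (ptf_vS _ ht (PTF.const q)) (ptf_vS _ ht1 (PTF.const n)))
  | pop k n =>
    exact ptf_sing (ptf_two (ptf_vS _ ht (PTF.const q)) (ptf_vS _ ht1 (PTF.const n)))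
  | br k e a b =>
    exact ptf_three
      (ptf_three (ptf_vS _ ht (PTF.const q)) (ptf_vC _ ht (PTF.const k) (PTF.const 0) (PTF.const 0))
        (ptf_vS _ ht1 (PTF.const e)))
      (ptf_three (ptf_vS _ ht (PTF.const q)) (ptf_vC _ ht (PTF.const k) (PTF.const 0) (PTF.const 2))
        (ptf_vS _ ht1 (PTF.const a)))
      (ptf_three (ptf_vS _ ht (PTF.const q)) (ptf_vC _ ht (PTF.const k) (PTF.const 0) (PTF.const 1))
        (ptf_vS _ ht1 (PTF.const b)))

theorem ptf_copy {t i j : γ → ℕ} (ht : PTF t) (hi : PTF i) (hj : PTF j) (q k : ℕ) :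
    PTF (fun c => [[(false, vS (t c) q), (false, vC (t c) k (j c) 0), (true, vC (t c + 1) k (i c) 0)],
      [(false, vS (t c) q), (false, vC (t c) k (j c) 1), (true, vC (t c + 1) k (i c) 1)],
      [(false, vS (t c) q), (false, vC (t c) k (j c) 2), (true, vC (t c + 1) k (i c) 2)]]) := by
  have ht1 : PTF (fun c => t c + 1) := PTF.natAdd ht (PTF.const 1)
  have h : ∀ v : ℕ, PTF (fun c =>
      [(false, vS (t c) q), (false, vC (t c) k (j c) v), (true, vC (t c + 1) k (i c) v)]) :=
    fun v => ptf_three (ptf_vS _ ht (PTF.const q)) (ptf_vC _ ht (PTF.const k) hj (PTF.const v))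
      (ptf_vC _ ht1 (PTF.const k) hi (PTF.const v))
  exact ptf_three (h 0) (h 1) (h 2)

theorem ptf_cellCl {t i : γ → ℕ} (ht : PTF t) (hi : PTF i) (q : ℕ) (I : Instr) (k : ℕ) :
    PTF (fun c => cellCl (t c) q I k (i c)) := by
  have ht1 : PTF (fun c => t c + 1) := PTF.natAdd ht (PTF.const 1)
  cases I with
  | push k' v n =>
    by_cases hk : k = k'
    · have h1 : PTF (fun c => [[(false, vS (t c) q), (true, vC (t c + 1) k (i c) (sym (some v)))]]) :=
        ptf_sing (ptf_two (ptf_vS _ ht (PTF.const q))
          (ptf_vC _ ht1 (PTF.const k) hi (PTF.const (sym (some v)))))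
      have h2 := ptf_copy ht hi (PTF.natSub hi (PTF.const 1)) q k
      refine PTF.of_eq (PTF.ite (p := fun c => i c = 0) (PTPred.eq hi (PTF.const 0)) h1 h2)
        (fun c => ?_)
      by_cases h0 : i c = 0
      · simp [cellCl, src, hk, h0]
      · simp [cellCl, src, hk, h0]
    · refine PTF.of_eq (ptf_copy ht hi hi q k) (fun c => ?_)
      simp [cellCl, src, hk]
  | pop k' n =>
    by_cases hk : k = k'
    · refine PTF.of_eq (ptf_copy ht hi (PTF.natAdd hi (PTF.const 1)) q k) (fun c => ?_)
      simp [cellCl, src, hk]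
    · refine PTF.of_eq (ptf_copy ht hi hi q k) (fun c => ?_)
      simp [cellCl, src, hk]
  | br k' e a b =>
    refine PTF.of_eq (ptf_copy ht hi hi q k) (fun c => ?_)
    simp [cellCl, src]

theorem ptf_stepCl (P : List Instr) (K : ℕ) {W t : γ → ℕ} (hW : PTU W) (ht : PTF t) :
    PTF (fun c => stepCl P K (W c) (t c)) := by
  refine ptf_flatMap_const P.zipIdx (fun c p => instCl K (W c) (t c) p) ?_
  rintro ⟨I, q⟩ _
  refine PTF.append (ptf_stCl ht q I) ?_
  refine ptf_flatMap_const (List.range K)
    (fun c k => (List.range (W c + 1)).flatMap fun i => cellCl (t c) q I k i) ?_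
  intro k _
  refine PTF.flatMap (f := fun c i => cellCl (t c) q I k i) (PTF.range (PTU.succ hW)) ?_
  exact ptf_cellCl (PTF.comp ht PTF.fst) PTF.snd q I k

theorem ptf_initCl (K : ℕ) {W p : γ → ℕ} {pre : γ → List Bool} (hW : PTU W) (hp : PTU p)
    (hpre : PTF pre) : PTF (fun c => initCl K (W c) (p c) (pre c)) := by
  have hlenU : PTU (fun c => (pre c).length) := PTU.length hpre
  have hlen : PTF (fun c => (pre c).length) := PTU.toPTF hlenU
  have hpF : PTF p := PTU.toPTF hp
  have hr : PTF (fun c => List.range (W c + 1)) := PTF.range (PTU.succ hW)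
  refine PTF.append (PTF.append (PTF.append (PTF.append (PTF.const _) ?_) ?_) ?_) ?_
  · refine PTF.map (f := fun _ (z : Bool × ℕ) => [((true, vC 0 0 z.2 (sym (some z.1))) : Bool × Var)])
      (PTF.zip hpre (PTF.range hlenU)) ?_
    refine ptf_sing ?_
    refine ptf_vC true (PTF.const 0) (PTF.const 0) (PTF.comp PTF.snd PTF.snd) ?_
    exact PTF.comp (g := fun b : Bool => sym (some b)) (PTF.of_finite _) (PTF.comp PTF.fst PTF.snd)
  · refine PTF.flatMap (f := fun c j =>
      [[(true, vC 0 0 ((pre c).length + j) 0), (true, vC 0 0 ((pre c).length + j) 1),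
        (true, vC 0 0 ((pre c).length + j) 2)],
       [(false, vC 0 0 ((pre c).length + j) 0), (true, vC 0 0 ((pre c).length + j + 1) 0)]])
      (PTF.range hp) ?_
    have ha : PTF (fun q : γ × ℕ => (pre q.1).length + q.2) :=
      PTF.natAdd (PTF.comp (g := fun c => (pre c).length) hlen PTF.fst) PTF.snd
    have h (v : ℕ) (b : Bool) : PTF (fun q : γ × ℕ =>
        ((b, vC 0 0 ((pre q.1).length + q.2) v) : Bool × Var)) :=
      ptf_vC b (PTF.const 0) (PTF.const 0) ha (PTF.const v)
    exact ptf_two (ptf_three (h 0 true) (h 1 true) (h 2 true))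
      (ptf_two (h 0 false) (ptf_vC true (PTF.const 0) (PTF.const 0)
        (PTF.natAdd ha (PTF.const 1)) (PTF.const 0)))
  · refine PTF.map (f := fun c i => [((true, vC 0 0 ((pre c).length + p c + i) 0) : Bool × Var)])
      hr ?_
    exact ptf_sing (ptf_vC true (PTF.const 0) (PTF.const 0)
      (PTF.natAdd (PTF.comp (g := fun c => (pre c).length + p c) (PTF.natAdd hlen hpF) PTF.fst) PTF.snd) (PTF.const 0))
  · refine ptf_flatMap_const (List.range K)
      (fun c k => (List.range (W c + 1)).map fun i => [((true, vC 0 (k + 1) i 0) : Bool × Var)]) ?_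
    intro k _
    refine PTF.map (f := fun _ i => [((true, vC 0 (k + 1) i 0) : Bool × Var)]) hr ?_
    exact ptf_sing (ptf_vC true (PTF.const 0) (PTF.const (k + 1)) PTF.snd (PTF.const 0))

theorem ptf_tabl (P : List Instr) (K : ℕ) {W T p : γ → ℕ} {pre : γ → List Bool} (hW : PTU W)
    (hT : PTU T) (hp : PTU p) (hpre : PTF pre) :
    PTF (fun c => tabl P K (W c) (T c) (p c) (pre c)) := by
  refine PTF.append (ptf_initCl K hW hp hpre) (PTF.append ?_ ?_)
  · refine PTF.flatMap (f := fun c t => stepCl P K (W c) t) (PTF.range hT) ?_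
    exact ptf_stepCl P K (PTU.comp hW PTF.fst) PTF.snd
  · exact ptf_sing (ptf_sing (ptf_vC false (PTU.toPTF hT) (PTF.const 0) (PTF.const 0) (PTF.const 1)))

end ptf

/-! ### clause lengths -/

theorem length_stCl {t q : ℕ} {I : Instr} : ∀ C ∈ stCl t q I, C.length ≤ 3 := by
  intro C hC
  cases I <;> simp only [stCl, List.mem_cons, List.not_mem_nil, or_false] at hC
  · subst hC; simp
  · subst hC; simp
  · rcases hC with rfl | rfl | rfl <;> simp

theorem length_cellCl {t q : ℕ} {I : Instr} {k i : ℕ} : ∀ C ∈ cellCl t q I k i, C.length ≤ 3 := by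
  intro C hC
  unfold cellCl at hC
  split at hC
  · simp only [List.mem_cons, List.not_mem_nil, or_false] at hC; subst hC; simp
  · simp only [List.mem_cons, List.not_mem_nil, or_false] at hC
    rcases hC with rfl | rfl | rfl <;> simp

theorem length_tabl {P : List Instr} {K W T p : ℕ} {pre : List Bool} :
    ∀ C ∈ tabl P K W T p pre, C.length ≤ 3 := by
  intro C hC
  simp only [tabl, initCl, stepCl, instCl, List.mem_append, List.mem_flatMap, List.mem_singleton,
    List.mem_map] at hC
  rcases hC with ((((hC | hC) | hC) | hC) | hC) | (hC | hC)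
  · subst hC; simp
  · obtain ⟨_, _, rfl⟩ := hC; simp
  · obtain ⟨_, _, hC⟩ := hC
    simp only [List.mem_cons, List.not_mem_nil, or_false] at hC
    rcases hC with rfl | rfl <;> simp
  · obtain ⟨_, _, rfl⟩ := hC; simp
  · obtain ⟨_, _, _, _, rfl⟩ := hC; simp
  · obtain ⟨_, _, _, _, hC⟩ := hC
    rcases hC with hC | ⟨_, _, _, _, hC⟩
    · exact length_stCl C hC
    · exact length_cellCl C hC
  · subst hC; simp

/-! ### the theorem -/

/-- flat program with an explicit final loop -/
def prog' (c : Cmd) : List Instr := prog c ++ [.br 0 (size c) (size c) (size c)]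

theorem prog'_ok (c : Cmd) : ∀ I ∈ prog' c, I.Ok (size c) (c.maxVar + 1) := by
  intro I hI
  unfold prog' at hI
  rw [List.mem_append, List.mem_singleton] at hI
  rcases hI with hI | rfl
  · exact comp_ok c 0 (size c) (size c) (c.maxVar + 1) (by omega) le_rfl (by omega) I hI
  · exact ⟨by omega, le_rfl, le_rfl, le_rfl⟩

theorem length_prog' (c : Cmd) : (prog' c).length = size c + 1 := by
  simp [prog', prog, length_comp]

theorem step_prog'_lt (c : Cmd) (a : ℕ × Store) (ha : a.1 < (prog' c).length) :
    (step (prog' c) a).1 < (prog' c).length := by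
  obtain ⟨pc, s⟩ := a
  have hget : (prog' c)[pc]? = some (prog' c)[pc] := List.getElem?_eq_getElem ha
  rw [step_of hget]
  have hok := prog'_ok c _ (List.getElem_mem ha)
  rw [length_prog']
  cases hI : (prog' c)[pc] with
  | push k v n => rw [hI] at hok; exact Nat.lt_succ_of_le hok.2
  | pop k n => rw [hI] at hok; exact Nat.lt_succ_of_le hok.2
  | br k e x y =>
    rw [hI] at hok
    simp only [exec1]
    obtain ⟨_, h1, h2, h3⟩ := hok
    rcases (s k)[0]? with _ | _ | _
    · simp only [target]; omega
    · simp only [target]; omega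
    · simp only [target]; omega

theorem iter_prog'_lt (c : Cmd) (s : Store) (t : ℕ) :
    ((step (prog' c))^[t] (0, s)).1 < (prog' c).length := by
  induction t with
  | zero => rw [length_prog']; exact Nat.succ_pos _
  | succ t ih => rw [iterate_succ_apply']; exact step_prog'_lt c _ ih

theorem sim_prog' {c : Cmd} {s s' : Store} {t T : ℕ} (h : Exec c s s' t) (hT : t ≤ T) :
    (step (prog' c))^[T] (0, s) = (size c, s') := by
  have h1 : (step (prog' c))^[t] (0, s) = (size c, s') := by
    refine sim h (prog' c) 0 (size c) (fun i hi => ?_)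
    rw [zero_add, prog', List.getElem?_append_left (by simpa [prog] using hi)]
    rfl
  obtain ⟨d, rfl⟩ := Nat.exists_eq_add_of_le hT
  rw [add_comm, iterate_add_apply, h1]
  clear hT
  induction d with
  | zero => rfl
  | succ d ih =>
    rw [iterate_succ_apply', ih]
    have hget : (prog' c)[size c]? = some (.br 0 (size c) (size c) (size c)) := by
      have hl : (prog c).length = size c := length_comp c 0 _
      rw [prog', List.getElem?_append_right (by omega), hl]
      simp
    rw [step_of hget]
    simp only [exec1]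
    rcases (s' 0)[0]? with _ | _ | _ <;> rfl

/-- **Cook-Levin theorem**: every problem in `NP` reduces in polynomial time to satisfiability of
formulas with at most three literals per clause. -/
theorem cookLevin {A : Set (List Bool)} (hA : Crest.Complexity.InNP A) :
    ∃ F : List Bool → List (List (Bool × Var)), PTF F ∧ (∀ x, ∀ C ∈ F x, C.length ≤ 3) ∧
      ∀ x, x ∈ A ↔ Sat (F x) := by
  obtain ⟨V, p, hV, hVA⟩ := hA
  have hV' : PTF V := PTF.of_polyTimePred₂ hV
  have hV2 : PTF (fun q : Bits × Bits => V (q.1.val, q.2.val)) :=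
    PTF.comp (g := V) hV' (PTF.prodMk (PTF.bitsVal PTF.fst) (PTF.bitsVal PTF.snd))
  obtain ⟨g, ⟨c, q, hg⟩, hgV⟩ := hV2
  have hgV' : ∀ x w : List Bool, g (pair x w) = [V (x, w)] := fun x w => hgV (⟨x⟩, ⟨w⟩)
  set pre : List Bool → List Bool := fun x => x.flatMap (fun b => [true, b]) ++ [false] with hpre
  have hpair : ∀ x w, pair x w = pre x ++ w := by
    intro x w
    simp [pair, hpre]
  set pf : List Bool → ℕ := fun x => p.eval x.length with hpf
  set T : List Bool → ℕ := fun x => q.eval ((pre x).length + pf x) with hT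
  refine ⟨fun x => tabl (prog' c) (c.maxVar + 1) (T x) (T x) (pf x) (pre x), ?_,
    fun x => length_tabl, fun x => ?_⟩
  · have h1 : PTF pre := by
      refine PTF.append ?_ (PTF.const _)
      refine PTF.flatMap (f := fun _ (b : Bool) => [true, b]) PTF.id ?_
      exact PTF.listCons (PTF.const true) (ptf_sing PTF.snd)
    have h2 : PTU pf := PTU.eval p (PTU.length PTF.id)
    have h3 : PTU T := PTU.eval q (PTU.add (PTU.length h1) h2)
    exact ptf_tabl _ _ h3 h3 h2 h1
  · have hrun : ∀ w : List Bool, w.length ≤ pf x →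
        ((step (prog' c))^[T x] (0, init (pre x ++ w))).2 0 = [V (x, w)] := by
      intro w hw
      obtain ⟨t, ht, hex⟩ := hg (pair x w)
      rw [← hpair, sim_prog' hex (ht.trans ?_)]
      · simp only [init_zero]
        exact hgV' x w
      · rw [hpair, List.length_append]
        exact polyEval_mono q (by omega)
    rw [hVA]
    constructor
    · rintro ⟨w, hw, hVw⟩
      exact tabl_sat hw (by rw [hrun w hw, hVw])
    · intro h
      obtain ⟨w, hw, hne⟩ := of_tabl_sat h (fun I hI => ⟨_, prog'_ok c I hI⟩) (Nat.succ_pos _) le_rfl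
        (fun w t => iter_prog'_lt c _ t)
      refine ⟨w, hw, ?_⟩
      rw [hrun w hw] at hne
      cases hb : V (x, w) with
      | true => rfl
      | false => rw [hb] at hne; exact absurd rfl hne

end Crest.Agent.R318.CL
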